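import Vale.Agent.P200.Lpp.Bounds
import Vale.Agent.P200.Lpp.Defs

/-!
# The lex-plus-powers conjecture in three variables
-/

namespace Vale.Agent.Results.P200.LexPlusPowersThreeVariables

open MvPolynomial Module Vale.Agent.P200 Vale.Agent.P200.Lpp

open scoped Classical

/-- In three variables the lex-plus-powers space is an ideal and has the largest graded Betti
numbers, for every field and all degrees. -/
theorem result :
    ∀ (K : Type) [Field K] (c : ℕ) (hc : c ≤ 3) (a : Fin c → ℕ),
      (∀ i, 2 ≤ a i) → Monotone a →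
      ∀ (f : Fin c → MvPolynomial (Fin 3) K), (∀ i, (f i).IsHomogeneous (a i)) →
        RingTheory.Sequence.IsWeaklyRegular (MvPolynomial (Fin 3) K) (List.ofFn f) →
        ∀ I : Ideal (MvPolynomial (Fin 3) K), (∀ p ∈ I, ∀ d, homogeneousComponent d p ∈ I) →
          (∀ i, f i ∈ I) →
          IsUpperSet (lexPlus hc a I) ∧
          (∀ d, finrank K ↥(part (lexPlusIdeal hc a I) d) = finrank K ↥(part I d)) ∧
          ∀ p j, betti I p j ≤ betti (lexPlusIdeal hc a I) p j := by
  intro K _ c hc a h2 hmono f hf hreg I hI hfI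
  let g : Fin c → GForm K 3 := fun i => ⟨f i, a i, hf i, lt_of_lt_of_le two_pos (h2 i)⟩
  have hg : (List.ofFn g).map GForm.g = List.ofFn f := by simp only [List.map_ofFn]; rfl
  let D : Setup K c :=
    ⟨a, g, I, hc, h2, hmono, fun _ => rfl, regL_of_isWeaklyRegular (hg ▸ hreg), hI, hfI⟩
  have hout : ∀ e : Fin 3 →₀ ℕ,
      (∀ i : Fin c, e (Fin.castLE hc i) < a i) ↔ OutP D.a ⇑e :=
    fun e => ⟨fun h i _ => h i, fun h i => h i (lt_of_lt_of_le i.2 hc)⟩
  have heq : lexPlus hc a I = D.S := by
    ext e
    simp only [lexPlus, excess, Set.mem_ofPred_eq]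
    set d := e.degree with hd
    by_cases ho : OutP D.a ⇑e
    swap
    · have h : ∃ i : Fin c, a i ≤ e (Fin.castLE hc i) := by
        by_contra hno
        push Not at hno
        exact ho ((hout e).mp hno)
      exact iff_of_true (Or.inl h) fun h' => absurd h' ho
    have hno : ¬∃ i : Fin c, a i ≤ e (Fin.castLE hc i) := by
      rintro ⟨i, hi⟩
      have := (hout e).mpr ho i
      omega
    rw [or_iff_right (show ¬InPowers hc a e from hno)]
    have heB : ⇑e ∈ D.B d := D.mem_B.mpr ⟨ho, (Chain.degree_eq_sum_fun e).symm⟩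
    have hcount : aboveCount hc a e = ((D.B d).filter fun u => toLex (⇑e) < toLex u).card := by
      have key : ∀ u : Fin 3 → ℕ, u ∈ (D.B d).filter (fun u => toLex (⇑e) < toLex u) ↔
          ∑ i, u i = d ∧
            ((∀ i : Fin c, (Finsupp.equivFunOnFinite.symm u : Fin 3 →₀ ℕ) (Fin.castLE hc i) < a i) ∧
              toLex (⇑e) < toLex (⇑(Finsupp.equivFunOnFinite.symm u : Fin 3 →₀ ℕ))) := fun u => by
        rw [Finset.mem_filter, D.mem_B, hout]
        simp only [Finsupp.coe_equivFunOnFinite_symm]
        tauto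
      unfold aboveCount
      convert Chain.card_degSet_box (fun g : Fin 3 →₀ ℕ =>
        (∀ i : Fin c, g (Fin.castLE hc i) < a i) ∧ toLex (⇑e) < toLex (⇑g)) _ key using 2
      all_goals (ext x; simp [InPowers, hd])
    have hbox : (D.B d).card + powersCount hc a d = (degSet 3 d).card := by
      have key : ∀ u : Fin 3 → ℕ, u ∈ D.B d ↔ ∑ i, u i = d ∧
          ¬∃ i : Fin c, a i ≤ (Finsupp.equivFunOnFinite.symm u : Fin 3 →₀ ℕ) (Fin.castLE hc i) :=
        fun u => by
        rw [D.mem_B]
        push Not
        rw [hout]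
        simp only [Finsupp.coe_equivFunOnFinite_symm]
        tauto
      rw [← Chain.card_degSet_box (fun g : Fin 3 →₀ ℕ => ¬∃ i : Fin c, a i ≤ g (Fin.castLE hc i))
        _ key, add_comm]
      unfold powersCount
      convert Finset.card_filter_add_card_filter_not (s := degSet 3 d)
        (p := fun g : Fin 3 →₀ ℕ => ∃ i : Fin c, a i ≤ g (Fin.castLE hc i)) using 3
      all_goals congr!
    have hrev : ((D.B d).filter fun u => toLex (⇑e) < toLex u).card + D.rk d ⇑e + 1 =
        (D.B d).card := by
      have h1 := Finset.card_filter_add_card_filter_not (s := D.B d)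
        (p := fun u => toLex u < toLex (⇑e))
      have h3 : (D.B d).filter (fun u => ¬ toLex u < toLex (⇑e)) =
          insert (⇑e) ((D.B d).filter fun u => toLex (⇑e) < toLex u) := by
        ext u
        simp only [Finset.mem_filter, Finset.mem_insert]
        constructor
        · rintro ⟨hu, hn⟩
          rcases (not_lt.mp hn).eq_or_lt with h4 | h4
          · exact Or.inl (toLex_inj.mp h4).symm
          · exact Or.inr ⟨hu, h4⟩
        · rintro (rfl | ⟨hu, h4⟩)
          · exact ⟨heB, lt_irrefl _⟩
          · exact ⟨hu, lt_asymm h4⟩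
      have h6 : ⇑e ∉ (D.B d).filter fun u => toLex (⇑e) < toLex u := fun hm =>
        lt_irrefl _ (Finset.mem_filter.mp hm).2
      rw [h3, Finset.card_insert_of_notMem h6] at h1
      change D.rk d ⇑e + _ = _ at h1
      omega
    have hr : finrank K (Forms K 3 d) = (degSet 3 d).card := by
      rw [forms_eq_restrictSupport, finrank_restrictSupport]
    have hh := hq_add I d
    have hle := (D.step d).2
    change _ < _ ↔ (OutP D.a ⇑e → hq I d ≤ D.rk d ⇑e)
    rw [hcount, imp_iff_right ho]
    change _ < finrank K (part I d) - _ ↔ _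
    change hq I d ≤ _ at hle
    omega
  unfold lexPlusIdeal
  rw [heq]
  have hspan : Ideal.span ((fun e => monomial e (1 : K)) '' D.S) = D.J :=
    (monIdeal_eq_span D.upper).symm
  refine ⟨D.upper, fun d => ?_, fun p j => ?_⟩
  · rw [hspan]
    show finrank K (part D.J d) = finrank K (part I d)
    have h1 := hq_add D.J d
    have h3 := hq_add I d
    rw [D.hq_J d] at h1
    change hq I d + _ = _ at h1
    omega
  · rw [hspan]
    exact D.betti_le p j

end Vale.Agent.Results.P200.LexPlusPowersThreeVariables
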