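import Vale.Agent.P200.Chain.SplitModel

/-!
# The Eisenbud–Green–Harris conjecture for sequences mixing split and growing forms
-/

namespace Vale.Agent.Results.P200.SplitAndGrowing

open MvPolynomial Module

/-- Let a homogeneous ideal contain a regular sequence of forms of degrees `2 ≤ a₀ ≤ a₁ ≤ …` and
let `N` be a set of at least three of the indices such that every form outside `N` is a product of
linear forms and, apart from the first three members of `N`, every `a i` with `i ∈ N` is at least
the sum of `a j - 1` over the earlier `j ∈ N`. Then some monomial ideal containing the powers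
`x_i ^ a i` has the same Hilbert function. -/
theorem result :
    ∀ (K : Type) [Field K] (n c : ℕ) (hcn : c ≤ n) (a : Fin c → ℕ) (N : Finset (Fin c)),
      (∀ i, 2 ≤ a i) → Monotone a → 3 ≤ N.card →
      (∀ i ∈ N, 3 ≤ (N.filter (· < i)).card → ∑ j ∈ N.filter (· < i), (a j - 1) ≤ a i) →
      ∀ (f : Fin c → MvPolynomial (Fin n) K), (∀ i, (f i).IsHomogeneous (a i)) →
        (∀ i, i ∉ N → ∃ ls : List (MvPolynomial (Fin n) K),
          (∀ l ∈ ls, l.IsHomogeneous 1) ∧ ls.prod = f i) →
        RingTheory.Sequence.IsWeaklyRegular (MvPolynomial (Fin n) K) (List.ofFn f) →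
        ∀ I : Ideal (MvPolynomial (Fin n) K), (∀ p ∈ I, ∀ d, homogeneousComponent d p ∈ I) →
          (∀ i, f i ∈ I) →
          ∃ S : Set (Fin n →₀ ℕ),
            (∀ i : Fin c, (X (Fin.castLE hcn i) : MvPolynomial (Fin n) K) ^ a i ∈
                Ideal.span ((fun e => monomial e (1 : K)) '' S)) ∧
            ∀ d, finrank K ↥((Ideal.span ((fun e => monomial e (1 : K)) '' S)).restrictScalars K ⊓
                  homogeneousSubmodule (Fin n) K d) =
                finrank K ↥(I.restrictScalars K ⊓ homogeneousSubmodule (Fin n) K d) := by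
  intro K _ n c hcn a N h2 hmono h3 hgrow f hf hsplit hreg I hI hfI
  let g : Fin c → Vale.Agent.P200.GForm K n :=
    fun i => ⟨f i, a i, hf i, lt_of_lt_of_le two_pos (h2 i)⟩
  have hg : (List.ofFn g).map Vale.Agent.P200.GForm.g = List.ofFn f := by
    simp only [List.map_ofFn]; rfl
  have hM : Vale.Agent.P200.Chain.ModelS (AlgebraicClosure K) n a N :=
    Vale.Agent.P200.Chain.modelS_good ⟨h3, h2, hmono, hgrow⟩ hcn
  obtain ⟨S, hS, hpure, hcnt⟩ := Vale.Agent.P200.Chain.exists_upperSet_of_modelS
    (AlgebraicClosure K) hM g (fun _ => rfl)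
    (Vale.Agent.P200.regL_of_isWeaklyRegular (hg ▸ hreg)) hsplit hI hfI
  refine ⟨S, fun i => ?_, fun d => ?_⟩
  · rw [← Vale.Agent.P200.monIdeal_eq_span hS]
    exact Vale.Agent.P200.X_pow_mem_monIdeal hS (hpure i (lt_of_lt_of_le i.2 hcn))
  · rw [← Vale.Agent.P200.monIdeal_eq_span hS]
    show finrank K (Vale.Agent.P200.part (Vale.Agent.P200.monIdeal K S hS) d) =
      finrank K (Vale.Agent.P200.part I d)
    have h1 := Vale.Agent.P200.hq_add (Vale.Agent.P200.monIdeal K S hS) d
    have h3 := Vale.Agent.P200.hq_add I d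
    rw [hcnt d] at h1
    omega

end Vale.Agent.Results.P200.SplitAndGrowing
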